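import Mathlib

set_option autoImplicit false

/-!
# P181, TL: growth, pure numbers (helper968)
-/

namespace Vale.Agent.P181.TL.H968

lemma choose_le_exp (n a : ℕ) (ha : 0 < a) :
    ((n.choose a : ℕ) : ℝ) ≤ ((n : ℝ) * Real.exp 1 / a) ^ a := by
  have ha' : (0 : ℝ) < a := by exact_mod_cast ha
  have h1 : ((n.choose a : ℕ) : ℝ) ≤ (n : ℝ) ^ a / a.factorial := Nat.choose_le_pow_div a n
  have h2 : (a : ℝ) ^ a / a.factorial ≤ Real.exp a :=
    Real.pow_div_factorial_le_exp a ha'.le a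
  have h3 : Real.exp (a : ℝ) = Real.exp 1 ^ a := by rw [← Real.exp_nat_mul, mul_one]
  have hf : (0 : ℝ) < a.factorial := by exact_mod_cast a.factorial_pos
  rw [h3] at h2
  have h4 : (n : ℝ) ^ a / a.factorial = (n : ℝ) ^ a / (a : ℝ) ^ a * ((a : ℝ) ^ a / a.factorial) := by
    field_simp
  calc ((n.choose a : ℕ) : ℝ) ≤ (n : ℝ) ^ a / (a : ℝ) ^ a * ((a : ℝ) ^ a / a.factorial) := by
        rw [← h4]; exact h1
    _ ≤ (n : ℝ) ^ a / (a : ℝ) ^ a * Real.exp 1 ^ a := by gcongr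
    _ = ((n : ℝ) * Real.exp 1 / a) ^ a := by rw [div_pow, mul_pow]; ring

/-- The core of the growth estimate. -/
lemma core (a b t Y : ℕ) (ha : 0 < a) (h : 9 * (a + b) * (a + t) ≤ a ^ 2 * Y) :
    (a + b).choose a * (a + t - 1).choose t ≤ Y ^ a := by
  have ha' : (0 : ℝ) < a := by exact_mod_cast ha
  have h1 : (a + t - 1).choose t ≤ (a + t).choose a := by
    obtain ⟨c, rfl⟩ : ∃ c, a = c + 1 := ⟨a - 1, by omega⟩
    have e1 : c + 1 + t - 1 = c + t := by omega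
    have e2 : c + 1 + t = (c + t) + 1 := by omega
    rw [e1, e2, Nat.choose_succ_succ, Nat.add_comm c t, Nat.choose_symm_add]
    omega
  have h2 := choose_le_exp (a + b) a ha
  have h3 := choose_le_exp (a + t) a ha
  have h4 : (((a + b).choose a * (a + t - 1).choose t : ℕ) : ℝ) ≤ ((Y ^ a : ℕ) : ℝ) := by
    have h5 : (((a + t - 1).choose t : ℕ) : ℝ) ≤ (((a + t).choose a : ℕ) : ℝ) := by
      exact_mod_cast h1
    have h6 : Real.exp 1 ^ 2 ≤ 9 := by
      have := Real.exp_one_lt_d9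
      have h0 := Real.exp_pos 1
      nlinarith
    have h7 : (9 : ℝ) * (a + b) * (a + t) ≤ a ^ 2 * Y := by exact_mod_cast h
    rw [Nat.cast_mul, Nat.cast_pow]
    calc (((a + b).choose a : ℕ) : ℝ) * (((a + t - 1).choose t : ℕ) : ℝ)
        ≤ (((a + b : ℕ) : ℝ) * Real.exp 1 / a) ^ a * (((a + t : ℕ) : ℝ) * Real.exp 1 / a) ^ a := by
          apply mul_le_mul h2 (h5.trans h3) (Nat.cast_nonneg _)
          positivity
      _ = ((((a : ℝ) + b) * (a + t) * Real.exp 1 ^ 2) / a ^ 2) ^ a := by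
          rw [← mul_pow]
          congr 1
          push_cast
          field_simp
      _ ≤ (Y : ℝ) ^ a := by
          apply pow_le_pow_left₀ (by positivity)
          rw [div_le_iff₀ (by positivity)]
          have h8 : ((a : ℝ) + b) * (a + t) * Real.exp 1 ^ 2 ≤ ((a : ℝ) + b) * (a + t) * 9 := by
            apply mul_le_mul_of_nonneg_left h6 (by positivity)
          linarith
  exact_mod_cast h4

/-- The statement `GrowP`. -/
theorem growP' (a b q t X : ℕ) (ha : 0 < a) (hq : 5 ≤ q) (hX : 1 ≤ X)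
    (h : 9 * (a + b) * (a + t) ≤ a ^ 2 * X ^ 4) :
    (a + b).choose a * (a + t - 1).choose t ≤ X ^ ((q - 1) * a) := by
  refine (core a b t (X ^ 4) ha h).trans ?_
  rw [← pow_mul]
  exact Nat.pow_le_pow_right hX (Nat.mul_le_mul_right a (by omega))

lemma aux1 (q m T : ℕ) (hq : 5 ≤ q) (hm : 40 ≤ m)
    (hT1 : 10 ^ 6 * (m * q ^ 2) ^ 2 ≤ T) : 3 * (T + 3) ≤ (T / q / (2 * m * q)) ^ 2 := by
  rw [Nat.div_div_eq_div_mul]
  have hq1 : 1 ≤ m * q ^ 2 := Nat.one_le_iff_ne_zero.2 (by positivity)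
  set D := q * (2 * m * q) with hD
  have hD1 : D = 2 * (m * q ^ 2) := by rw [hD]; ring
  have hD0 : 0 < D := by omega
  set X := T / D with hX
  have h1 : T < D * (X + 1) := Nat.lt_mul_div_succ T hD0
  have h2 : 250000 * D ^ 2 ≤ T := by
    rw [hD1]
    calc 250000 * (2 * (m * q ^ 2)) ^ 2 = 10 ^ 6 * (m * q ^ 2) ^ 2 := by ring
      _ ≤ T := hT1
  have h3 : 2 * D ≤ T := by nlinarith
  have h4 : T ≤ 2 * (D * X) := by
    rw [mul_add, mul_one] at h1
    omega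
  have h5 : T * T ≤ 4 * D ^ 2 * X ^ 2 := by
    calc T * T ≤ (2 * (D * X)) * (2 * (D * X)) := Nat.mul_le_mul h4 h4
      _ = 4 * D ^ 2 * X ^ 2 := by ring
  have h6 : 62500 * T ≤ X ^ 2 := by
    have h7 : (250000 * D ^ 2) * T ≤ (4 * D ^ 2) * X ^ 2 :=
      (Nat.mul_le_mul_right T h2).trans h5
    have h8 : (4 * D ^ 2) * (62500 * T) ≤ (4 * D ^ 2) * X ^ 2 := by
      calc (4 * D ^ 2) * (62500 * T) = (250000 * D ^ 2) * T := by ring
        _ ≤ _ := h7
    exact Nat.le_of_mul_le_mul_left h8 (by positivity)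
  have h9 : 1 ≤ T := by omega
  omega

lemma aux2 (a q m t : ℕ) (ha : 0 < a) (hq5 : 5 ≤ q) (hm : 40 ≤ m)
    (hq : q - 4 = 16 * t / a ^ 2 + 1) (hma : 10 * m ^ 4 * q ≤ a) :
    3 * (t / a + 3) ≤ (a / (2 * m ^ 2)) ^ 2 := by
  set E := 2 * m ^ 2 with hE
  have hE0 : 0 < E := by positivity
  set X := a / E with hX
  set T := t / a with hT
  have h1 : a < E * (X + 1) := Nat.lt_mul_div_succ a hE0
  have hm2 : 1600 ≤ m ^ 2 := by
    calc 1600 = 40 ^ 2 := by norm_num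
      _ ≤ m ^ 2 := Nat.pow_le_pow_left hm 2
  have h2 : 10 * E ≤ a := by
    calc 10 * E = 10 * (2 * 1) * m ^ 2 := by rw [hE]; ring
      _ ≤ 10 * (m ^ 2 * q) * m ^ 2 := by
        have : 2 * 1 ≤ m ^ 2 * q := Nat.mul_le_mul (by omega) (by omega)
        gcongr
      _ = 10 * m ^ 4 * q := by ring
      _ ≤ a := hma
  have h3 : a ≤ 2 * (E * X) := by
    rw [mul_add, mul_one] at h1
    omega
  have h4 : a * a ≤ 4 * E ^ 2 * X ^ 2 := by
    calc a * a ≤ (2 * (E * X)) * (2 * (E * X)) := Nat.mul_le_mul h3 h3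
      _ = 4 * E ^ 2 * X ^ 2 := by ring
  have h5 : 10 * (q * a) ≤ 16 * X ^ 2 := by
    have h6 : (10 * m ^ 4 * q) * a ≤ 4 * E ^ 2 * X ^ 2 := (Nat.mul_le_mul_right a hma).trans h4
    have h7 : m ^ 4 * (10 * (q * a)) ≤ m ^ 4 * (16 * X ^ 2) := by
      calc m ^ 4 * (10 * (q * a)) = (10 * m ^ 4 * q) * a := by ring
        _ ≤ 4 * E ^ 2 * X ^ 2 := h6
        _ = m ^ 4 * (16 * X ^ 2) := by rw [hE]; ring
    exact Nat.le_of_mul_le_mul_left h7 (by positivity)
  have h6 : 16 * t < a ^ 2 * (q - 4) := by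
    rw [hq]
    exact Nat.lt_mul_div_succ _ (by positivity)
  have h7 : 16 * T ≤ q * a := by
    have h8 : a * T ≤ t := Nat.mul_div_le t a
    have h9 : a * (16 * T) < a * (q * a) := by
      calc a * (16 * T) = 16 * (a * T) := by ring
        _ ≤ 16 * t := Nat.mul_le_mul_left 16 h8
        _ < a ^ 2 * (q - 4) := h6
        _ ≤ a ^ 2 * q := Nat.mul_le_mul_left _ (Nat.sub_le _ _)
        _ = a * (q * a) := by ring
    exact (Nat.lt_of_mul_lt_mul_left h9).le
  have h8 : a ≤ q * a := Nat.le_mul_of_pos_left a (by omega)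
  have h9 : 3200 ≤ E := by omega
  omega

/-- The statement `GrowC`. -/
theorem growC' (a b q m t : ℕ) (ha : 0 < a) (hq : q = 5 + 16 * t / a ^ 2) (hm : 8 * q ≤ m)
    (hma : 10 * m ^ 4 * q ≤ a) (hb : b ≤ t + a) (ht : 10 ^ 6 * (m * q ^ 2) ^ 2 * a ≤ t) :
    (a + b).choose a * (a + t - 1).choose t ≤
      (min (t / a / q / (2 * m * q)) (a / (2 * m ^ 2))) ^ ((q - 1) * a) := by
  have hq5 : 5 ≤ q := by
    rw [hq]
    exact Nat.le_add_right 5 _
  have hq4 : q - 4 = 16 * t / a ^ 2 + 1 := by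
    rw [hq]
    generalize 16 * t / a ^ 2 = z
    omega
  have hm40 : 40 ≤ m := by omega
  have hT1 : 10 ^ 6 * (m * q ^ 2) ^ 2 ≤ t / a := by
    rw [Nat.le_div_iff_mul_le ha]
    exact ht
  have hT2 : t < a * (t / a + 1) := Nat.lt_mul_div_succ t ha
  -- reduction to `3 (T + 3) ≤ X ^ 2`
  have key : ∀ X : ℕ, 3 * (t / a + 3) ≤ X ^ 2 →
      1 ≤ X ∧ 9 * (a + b) * (a + t) ≤ a ^ 2 * X ^ 4 := by
    intro X hX
    generalize t / a = T at hX hT2
    constructor
    · rcases Nat.eq_zero_or_pos X with h | h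
      · subst h
        simp at hX
      · exact h
    · rw [mul_add, mul_one] at hT2
      have h1 : a + b ≤ a * (T + 3) := by
        rw [mul_add]
        omega
      have h2 : a + t ≤ a * (T + 3) := by
        rw [mul_add]
        omega
      calc 9 * (a + b) * (a + t) ≤ 9 * (a * (T + 3)) * (a * (T + 3)) := by gcongr
        _ = a ^ 2 * (3 * (T + 3)) ^ 2 := by ring
        _ ≤ a ^ 2 * (X ^ 2) ^ 2 := by gcongr
        _ = a ^ 2 * X ^ 4 := by ring
  rcases le_total (t / a / q / (2 * m * q)) (a / (2 * m ^ 2)) with h | h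
  · rw [min_eq_left h]
    obtain ⟨h1, h2⟩ := key _ (aux1 q m _ hq5 hm40 hT1)
    exact growP' a b q t _ ha hq5 h1 h2
  · rw [min_eq_right h]
    obtain ⟨h1, h2⟩ := key _ (aux2 a q m t ha hq5 hm40 hq4 hma)
    exact growP' a b q t _ ha hq5 h1 h2

end Vale.Agent.P181.TL.H968
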