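import Vale.Agent.P181.TL.DefsP
import Vale.Agent.P181.TL.H968.Num

set_option autoImplicit false

namespace Vale.Agent.P181.TL.H968

/-- **(G+)**. -/
theorem growP : GrowP := fun a b q t X ha hq hX h => growP' a b q t X ha hq hX h

end Vale.Agent.P181.TL.H968
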